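import Mathlib

/-!
# Euclidean density of Zariski open subsets of an irreducible variety

`A` a finitely generated domain over `ℂ`, `φ : A →ₐ[ℂ] ℂ` a point, `f ≠ 0` in `A`:
there are points `ψ` with `ψ f ≠ 0` arbitrarily close to `φ` (`dens_alg`, `dens_seq`).
Version for a prime ideal `P` of `ℂ[x]` : `dens_prime`.
-/

namespace Vale.Agent.P271.H26

open Polynomial Filter Topology

theorem exists_lift_dom {R S : Type*} [CommRing R] [IsDomain R] [CommRing S] [IsDomain S]
    [Algebra R S] [Algebra.IsIntegral R S] (hinj : Function.Injective (algebraMap R S))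
    (φ : R →+* ℂ) (hφ : Function.Injective φ) :
    ∃ ψ : S →+* ℂ, ∀ x, ψ (algebraMap R S x) = φ x := by
  let := φ.toAlgebra
  have : FaithfulSMul R ℂ := (faithfulSMul_iff_algebraMap_injective _ _).2 hφ
  have : FaithfulSMul R S := (faithfulSMul_iff_algebraMap_injective _ _).2 hinj
  let θ : S →ₐ[R] ℂ := IsAlgClosed.lift
  exact ⟨θ.toRingHom, fun x => θ.commutes x⟩

/-- Lying over for complex points. -/
theorem exists_lift_point {R S : Type*} [CommRing R] [CommRing S] [Algebra R S]
    [Algebra.IsIntegral R S] (φ : R →+* ℂ)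
    (hker : RingHom.ker (algebraMap R S) ≤ RingHom.ker φ) :
    ∃ ψ : S →+* ℂ, ∀ x, ψ (algebraMap R S x) = φ x := by
  have hprime : (RingHom.ker φ).IsPrime := RingHom.ker_isPrime φ
  obtain ⟨Q, -, hQp, hQ⟩ := Ideal.exists_ideal_over_prime_of_isIntegral (RingHom.ker φ)
    (⊥ : Ideal S) (by simpa [← RingHom.ker_eq_comap_bot] using hker)
  have hQp' : (Q.comap (algebraMap R S)).IsPrime := by rw [hQ]; exact hprime
  let φ' : (R ⧸ Q.comap (algebraMap R S)) →+* ℂ :=
    Ideal.Quotient.lift _ φ (fun a ha => by rw [hQ] at ha; exact ha)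
  have hφ'mk : ∀ y, φ' (Ideal.Quotient.mk _ y) = φ y := fun y => Ideal.Quotient.lift_mk _ _ _
  have hφ' : Function.Injective φ' := by
    rw [injective_iff_map_eq_zero]
    intro x
    obtain ⟨y, rfl⟩ := Ideal.Quotient.mk_surjective x
    intro hy
    rw [Ideal.Quotient.eq_zero_iff_mem, hQ]
    rw [hφ'mk] at hy
    exact hy
  obtain ⟨θ, hθ⟩ := exists_lift_dom (R := R ⧸ Q.comap (algebraMap R S)) (S := S ⧸ Q)
    Ideal.algebraMap_quotient_injective φ' hφ'
  refine ⟨θ.comp (Ideal.Quotient.mk Q), fun x => ?_⟩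
  rw [← hφ'mk, ← hθ]
  rfl

/-- A monic complex polynomial of degree `e ≥ 1` has a root `α` with `|α|^e ≤ |p(0)|`. -/
theorem exists_small_root (p : ℂ[X]) (hp : p.Monic) (hd : p.natDegree ≠ 0) :
    ∃ α : ℂ, p.eval α = 0 ∧ ‖α‖ ^ p.natDegree ≤ ‖p.coeff 0‖ := by
  classical
  have hsp : p.Splits := IsAlgClosed.splits p
  have hcard : Multiset.card p.roots = p.natDegree := (Polynomial.splits_iff_card_roots.1 hsp)
  have hprod : p.coeff 0 = (-1) ^ p.natDegree * p.roots.prod :=
    hsp.coeff_zero_eq_prod_roots_of_monic hp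
  have hn : ‖p.coeff 0‖ = (p.roots.map (fun x => ‖x‖)).prod := by
    rw [hprod, norm_mul, norm_pow, norm_neg, norm_one, one_pow, one_mul]
    exact map_multiset_prod (normHom : ℂ →*₀ ℝ) p.roots
  have hne : p.roots ≠ 0 := by
    intro h
    rw [h] at hcard
    exact hd (by simpa using hcard.symm)
  obtain ⟨α, hα, hmin⟩ := Finset.exists_min_image p.roots.toFinset (fun x => ‖x‖)
    (by rwa [Multiset.toFinset_nonempty])
  refine ⟨α, (Polynomial.mem_roots'.1 (Multiset.mem_toFinset.1 hα)).2, ?_⟩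
  rw [hn, ← hcard]
  have h1 : (p.roots.map (fun _ => ‖α‖)).prod ≤ (p.roots.map (fun x => ‖x‖)).prod := by
    apply Multiset.prod_map_le_prod_map₀
    · intro i _; positivity
    · intro i hi; exact hmin i (Multiset.mem_toFinset.2 hi)
  simpa using h1


/-- Elementary bound for the roots of a monic polynomial given by an evaluation. -/
theorem root_bound {R : Type*} [CommRing R] (χ : R[X]) (hχ : χ.Monic) (θ : R →+* ℂ) (x : ℂ)
    (hx : χ.eval₂ θ x = 0) :
    ‖x‖ ≤ 1 + ∑ i ∈ Finset.range χ.natDegree, ‖θ (χ.coeff i)‖ := by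
  set S := ∑ i ∈ Finset.range χ.natDegree, ‖θ (χ.coeff i)‖ with hS
  have hS0 : 0 ≤ S := Finset.sum_nonneg fun _ _ => norm_nonneg _
  by_contra hcon
  push Not at hcon
  have hx1 : 1 < ‖x‖ := by linarith
  have hd : χ.natDegree ≠ 0 := by
    intro h0
    have h1 : χ = 1 := (hχ.natDegree_eq_zero).1 h0
    rw [h1] at hx
    simp at hx
  obtain ⟨e, he⟩ := Nat.exists_eq_succ_of_ne_zero hd
  rw [Polynomial.eval₂_eq_sum_range, Finset.sum_range_succ, hχ.coeff_natDegree, map_one,
    one_mul] at hx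
  have h2 : ‖x‖ ^ χ.natDegree ≤ S * ‖x‖ ^ e := by
    have h3 : x ^ χ.natDegree =
        -∑ i ∈ Finset.range χ.natDegree, θ (χ.coeff i) * x ^ i := by
      linear_combination hx
    rw [← norm_pow, h3, norm_neg, hS, Finset.sum_mul]
    refine (norm_sum_le _ _).trans (Finset.sum_le_sum fun i hi => ?_)
    rw [norm_mul, norm_pow]
    refine mul_le_mul_of_nonneg_left (pow_le_pow_right₀ hx1.le ?_) (norm_nonneg _)
    have := Finset.mem_range.1 hi
    omega
  rw [he, pow_succ'] at h2
  have h4 : ‖x‖ ≤ S := le_of_mul_le_mul_right h2 (by positivity)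
  linarith

/-- A non zero polynomial does not vanish identically near any point. -/
theorem mem_closure_ne {s : ℕ} (r : MvPolynomial (Fin s) ℂ) (hr : r ≠ 0) (t₀ : Fin s → ℂ) :
    t₀ ∈ closure {t | MvPolynomial.eval t r ≠ 0} := by
  obtain ⟨t₁, ht₁⟩ : ∃ t₁, MvPolynomial.eval t₁ r ≠ 0 := by
    by_contra h
    push Not at h
    exact hr (MvPolynomial.funext fun x => by simpa using h x)
  -- restriction to the line
  let q : ℂ[X] := MvPolynomial.aeval (fun i => Polynomial.C (t₀ i) +
    Polynomial.X * Polynomial.C (t₁ i - t₀ i)) r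
  have hq : ∀ l : ℂ, q.eval l = MvPolynomial.eval (fun i => t₀ i + l * (t₁ i - t₀ i)) r := by
    intro l
    have h1 : (Polynomial.evalRingHom l).comp (MvPolynomial.aeval (fun i => Polynomial.C (t₀ i) +
        Polynomial.X * Polynomial.C (t₁ i - t₀ i)) :
          MvPolynomial (Fin s) ℂ →ₐ[ℂ] ℂ[X]).toRingHom =
        MvPolynomial.eval (fun i => t₀ i + l * (t₁ i - t₀ i)) := by
      apply MvPolynomial.ringHom_ext
      · intro c; simp
      · intro i; simp
    exact congrArg (fun g => g r) h1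
  have hq0 : q ≠ 0 := by
    intro h
    have := hq 1
    rw [h] at this
    apply ht₁
    simpa using this.symm
  have hclos : (0 : ℂ) ∈ closure {l : ℂ | q.eval l ≠ 0} := by
    have hfin : {l : ℂ | q.eval l = 0}.Finite := by
      have := q.roots.toFinset.finite_toSet
      refine this.subset fun l hl => ?_
      simp only [Set.mem_ofPred_eq] at hl
      simp [hq0, hl]
    have hd : Dense {l : ℂ | q.eval l ≠ 0} := by
      have := hfin.countable.dense_compl ℂ
      exact this
    exact hd 0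
  have hcont : Continuous fun l : ℂ => fun i => t₀ i + l * (t₁ i - t₀ i) := by fun_prop
  have h0 : (fun i => t₀ i + (0 : ℂ) * (t₁ i - t₀ i)) = t₀ := by ext i; simp
  have := map_mem_closure (f := fun l : ℂ => fun i => t₀ i + l * (t₁ i - t₀ i)) hcont hclos
    (t := {t | MvPolynomial.eval t r ≠ 0}) (fun l hl => by
      simp only [Set.mem_ofPred_eq] at hl ⊢
      rwa [← hq])
  simpa [h0] using this


section core

variable {s : ℕ} {A : Type*} [CommRing A] [IsDomain A] [Algebra ℂ A]
  [Algebra (MvPolynomial (Fin s) ℂ) A] [IsScalarTower ℂ (MvPolynomial (Fin s) ℂ) A]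
  [Algebra.IsIntegral (MvPolynomial (Fin s) ℂ) A]

omit [IsDomain A] [Algebra.IsIntegral (MvPolynomial (Fin s) ℂ) A] in
/-- The point of `ℂ^s` below a point of `A`. -/
theorem below (φ : A →ₐ[ℂ] ℂ) (r : MvPolynomial (Fin s) ℂ) :
    φ (algebraMap _ A r) =
      MvPolynomial.eval (fun i : Fin s =>
        φ (algebraMap (MvPolynomial (Fin s) ℂ) A (MvPolynomial.X i))) r := by
  have h : φ.comp (IsScalarTower.toAlgHom ℂ (MvPolynomial (Fin s) ℂ) A) =
      MvPolynomial.aeval (fun i : Fin s =>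
        φ (algebraMap (MvPolynomial (Fin s) ℂ) A (MvPolynomial.X i))) := by
    apply MvPolynomial.algHom_ext
    intro i
    simp
  have := congrArg (fun g => g r) h
  simpa [MvPolynomial.coe_aeval_eq_eval] using this

/-- Points of `A` over a fixed point of `ℂ^s` with a given value (root of the minimal polynomial)
at a given element. -/
theorem exists_point_over (hinj : Function.Injective (algebraMap (MvPolynomial (Fin s) ℂ) A))
    (a : A) (t : Fin s → ℂ) (α : ℂ)
    (hα : (minpoly (MvPolynomial (Fin s) ℂ) a).eval₂ (MvPolynomial.eval t) α = 0) :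
    ∃ ψ : A →ₐ[ℂ] ℂ, (∀ r, ψ (algebraMap _ A r) = MvPolynomial.eval t r) ∧ ψ a = α := by
  have hfs : FaithfulSMul (MvPolynomial (Fin s) ℂ) A :=
    (faithfulSMul_iff_algebraMap_injective _ _).2 hinj
  let := (Polynomial.aeval (R := MvPolynomial (Fin s) ℂ) a).toRingHom.toAlgebra
  have htow : IsScalarTower (MvPolynomial (Fin s) ℂ) (MvPolynomial (Fin s) ℂ)[X] A := by
    apply IsScalarTower.of_algebraMap_eq
    intro x
    change _ = Polynomial.aeval a (Polynomial.C x)
    simp
  have hint : Algebra.IsIntegral (MvPolynomial (Fin s) ℂ)[X] A :=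
    Algebra.IsIntegral.tower_top (MvPolynomial (Fin s) ℂ)
  have hmap : ∀ p : (MvPolynomial (Fin s) ℂ)[X],
      algebraMap (MvPolynomial (Fin s) ℂ)[X] A p = Polynomial.aeval a p := fun p => rfl
  obtain ⟨ψ, hψ⟩ := exists_lift_point (R := (MvPolynomial (Fin s) ℂ)[X]) (S := A)
    (Polynomial.eval₂RingHom (MvPolynomial.eval t) α) (by
      intro p hp
      rw [RingHom.mem_ker, hmap] at hp
      obtain ⟨q, rfl⟩ := minpoly.isIntegrallyClosed_dvd (Algebra.IsIntegral.isIntegral a) hp
      rw [RingHom.mem_ker, map_mul, Polynomial.coe_eval₂RingHom, hα, zero_mul])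
  have h1 : ∀ r, ψ (algebraMap (MvPolynomial (Fin s) ℂ) A r) = MvPolynomial.eval t r := by
    intro r
    have := hψ (Polynomial.C r)
    rw [hmap] at this
    simpa using this
  refine ⟨⟨ψ, fun c => ?_⟩, h1, ?_⟩
  · have := h1 (MvPolynomial.C c)
    rw [MvPolynomial.eval_C] at this
    rw [← MvPolynomial.algebraMap_eq, ← IsScalarTower.algebraMap_apply] at this
    exact this
  · have := hψ Polynomial.X
    rw [hmap] at this
    simpa using this

omit [IsDomain A] [IsScalarTower ℂ (MvPolynomial (Fin s) ℂ) A] in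
/-- separating element -/
theorem exists_separating [hft : Algebra.FiniteType ℂ A] (φ : A →ₐ[ℂ] ℂ) :
    ∃ a : A, φ a = 0 ∧ ∀ ψ : A →ₐ[ℂ] ℂ,
      (∀ r : MvPolynomial (Fin s) ℂ, ψ (algebraMap _ A r) = φ (algebraMap _ A r)) →
      ψ a = 0 → ψ = φ := by
  classical
  obtain ⟨G, hG⟩ := hft.out
  set F : Set (A →ₐ[ℂ] ℂ) := {ψ | ∀ r : MvPolynomial (Fin s) ℂ,
    ψ (algebraMap _ A r) = φ (algebraMap _ A r)} with hF
  have hFfin : F.Finite := by
    let Ψ : (A →ₐ[ℂ] ℂ) → (G → ℂ) := fun ψ b => ψ b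
    have hinjon : Set.InjOn Ψ F := by
      intro ψ₁ _ ψ₂ _ h
      apply AlgHom.ext_of_adjoin_eq_top hG
      intro b hb
      exact congrFun h ⟨b, hb⟩
    have himg : (Ψ '' F).Finite := by
      have hpi : (Set.univ.pi (fun b : G => {x : ℂ |
          ((minpoly (MvPolynomial (Fin s) ℂ) (b : A)).map
            (φ.toRingHom.comp (algebraMap _ A))).eval x = 0})).Finite := by
        apply Set.Finite.pi
        intro b
        have hm : ((minpoly (MvPolynomial (Fin s) ℂ) (b : A)).map
            (φ.toRingHom.comp (algebraMap _ A))) ≠ 0 :=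
          ((minpoly.monic (Algebra.IsIntegral.isIntegral (b : A))).map _).ne_zero
        have hfs := ((minpoly (MvPolynomial (Fin s) ℂ) (b : A)).map
            (φ.toRingHom.comp (algebraMap _ A))).roots.toFinset.finite_toSet
        refine hfs.subset fun x hx => ?_
        simp only [Set.mem_ofPred_eq] at hx
        simp only [Finset.mem_coe, Multiset.mem_toFinset]
        exact (Polynomial.mem_roots hm).2 hx
      refine hpi.subset ?_
      rintro _ ⟨ψ, hψ, rfl⟩ b -
      simp only [Set.mem_ofPred_eq, Ψ]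
      rw [Polynomial.eval_map]
      have h1 := congrArg ψ (minpoly.aeval (MvPolynomial (Fin s) ℂ) (b : A))
      rw [map_zero, Polynomial.aeval_def, ← AlgHom.coe_toRingHom, Polynomial.hom_eval₂] at h1
      have h2 : (ψ.toRingHom.comp (algebraMap (MvPolynomial (Fin s) ℂ) A)) =
          (φ.toRingHom.comp (algebraMap _ A)) := by
        apply RingHom.ext
        intro r
        exact hψ r
      rw [← h2]
      exact h1
    exact Set.Finite.of_finite_image himg hinjon
  -- prime avoidance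
  by_contra hcon
  push Not at hcon
  have hsub : ((RingHom.ker φ.toRingHom : Ideal A) : Set A) ⊆
      ⋃ ψ ∈ (↑(hFfin.toFinset.erase φ) : Set (A →ₐ[ℂ] ℂ)),
        ((RingHom.ker ψ.toRingHom : Ideal A) : Set A) := by
    intro a ha
    obtain ⟨ψ, h1, h2, h3⟩ := hcon a ha
    simp only [Set.mem_iUnion]
    refine ⟨ψ, ?_, h2⟩
    simp only [Finset.coe_erase, Set.Finite.coe_toFinset, Set.mem_sdiff, Set.mem_singleton_iff]
    exact ⟨h1, h3⟩
  obtain ⟨ψ, hψ, hle⟩ := (Ideal.subset_union_prime (s := hFfin.toFinset.erase φ)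
    (f := fun ψ : A →ₐ[ℂ] ℂ => RingHom.ker ψ.toRingHom) φ φ
    (fun ψ _ _ _ => RingHom.ker_isPrime _)).1 hsub
  apply (Finset.mem_erase.1 hψ).1
  ext x
  have h1 : x - algebraMap ℂ A (φ x) ∈ RingHom.ker φ.toRingHom := by
    simp [RingHom.mem_ker]
  have h2 := hle h1
  rw [RingHom.mem_ker] at h2
  have h3 : ψ x - φ x = 0 := by simpa using h2
  exact sub_eq_zero.1 h3

/-- Points over `t` near `t₀` with small value at `a` converge to the point where `a` vanishes. -/
theorem dens_core [hft : Algebra.FiniteType ℂ A]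
    (hinj : Function.Injective (algebraMap (MvPolynomial (Fin s) ℂ) A))
    (φ : A →ₐ[ℂ] ℂ) (f : A) (hf : f ≠ 0) (F : Finset A) {ε : ℝ} (hε : 0 < ε) :
    ∃ ψ : A →ₐ[ℂ] ℂ, (∀ a ∈ F, ‖ψ a - φ a‖ < ε) ∧ ψ f ≠ 0 := by
  classical
  have hfs : FaithfulSMul (MvPolynomial (Fin s) ℂ) A :=
    (faithfulSMul_iff_algebraMap_injective _ _).2 hinj
  set t₀ : Fin s → ℂ := fun i =>
    φ (algebraMap (MvPolynomial (Fin s) ℂ) A (MvPolynomial.X i)) with ht₀
  have hφ : ∀ r : MvPolynomial (Fin s) ℂ, φ (algebraMap _ A r) = MvPolynomial.eval t₀ r :=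
    fun r => below φ r
  -- a nonzero polynomial divisible by `f`
  obtain ⟨r, hr0, b, hrb⟩ : ∃ r : MvPolynomial (Fin s) ℂ, r ≠ 0 ∧ ∃ b : A,
      algebraMap _ A r = f * b := by
    have h1 := Ideal.comap_ne_bot_of_integral_mem (R := MvPolynomial (Fin s) ℂ) (S := A)
      (I := Ideal.span {f}) hf (Ideal.mem_span_singleton_self f)
      (Algebra.IsIntegral.isIntegral f)
    obtain ⟨r, hr, hr0⟩ := Submodule.exists_mem_ne_zero_of_ne_bot h1
    exact ⟨r, hr0, Ideal.mem_span_singleton'.1 hr |>.imp fun b hb => by rw [← hb, mul_comm]⟩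
  -- separating element and its minimal polynomial
  obtain ⟨a, ha0, hsep⟩ := exists_separating (s := s) φ
  set χ := minpoly (MvPolynomial (Fin s) ℂ) a with hχ
  have hint : IsIntegral (MvPolynomial (Fin s) ℂ) a := Algebra.IsIntegral.isIntegral a
  have hχm : χ.Monic := minpoly.monic hint
  have hχd : χ.natDegree ≠ 0 := (minpoly.natDegree_pos hint).ne'
  have hroot : ∀ t : Fin s → ℂ, ∃ α : ℂ, χ.eval₂ (MvPolynomial.eval t) α = 0 ∧
      ‖α‖ ^ χ.natDegree ≤ ‖MvPolynomial.eval t (χ.coeff 0)‖ := by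
    intro t
    have hd : (χ.map (MvPolynomial.eval t)).natDegree = χ.natDegree := hχm.natDegree_map _
    obtain ⟨α, h1, h2⟩ := exists_small_root (χ.map (MvPolynomial.eval t)) (hχm.map _)
      (by rw [hd]; exact hχd)
    rw [hd, Polynomial.coeff_map] at h2
    rw [Polynomial.eval_map] at h1
    exact ⟨α, h1, h2⟩
  choose α hα hαsmall using hroot
  choose ψ hψ hψa using fun t => exists_point_over hinj a t (α t) (hα t)
  -- the filter
  have hne : (𝓝[{t | MvPolynomial.eval t r ≠ 0}] t₀).NeBot :=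
    mem_closure_iff_nhdsWithin_neBot.1 (mem_closure_ne r hr0 t₀)
  let U : Ultrafilter (Fin s → ℂ) := Ultrafilter.of (𝓝[{t | MvPolynomial.eval t r ≠ 0}] t₀)
  have hU : (U : Filter (Fin s → ℂ)) ≤ 𝓝[{t | MvPolynomial.eval t r ≠ 0}] t₀ :=
    Ultrafilter.of_le _
  have hU1 : (U : Filter (Fin s → ℂ)) ≤ 𝓝 t₀ := hU.trans nhdsWithin_le_nhds
  have hU2 : ∀ᶠ t in (U : Filter (Fin s → ℂ)), MvPolynomial.eval t r ≠ 0 :=
    hU self_mem_nhdsWithin
  have hcont : ∀ q : MvPolynomial (Fin s) ℂ,
      Tendsto (fun t => MvPolynomial.eval t q) (U : Filter (Fin s → ℂ))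
        (𝓝 (MvPolynomial.eval t₀ q)) := fun q =>
    ((MvPolynomial.continuous_eval q).tendsto t₀).mono_left hU1
  -- limits
  have hlim : ∀ c : A, ∃ x : ℂ, Tendsto (fun t => ψ t c) (U : Filter (Fin s → ℂ)) (𝓝 x) := by
    intro c
    set χc := minpoly (MvPolynomial (Fin s) ℂ) c with hχc
    have hcm : χc.Monic := minpoly.monic (Algebra.IsIntegral.isIntegral c)
    have hbd : ∀ t, ‖ψ t c‖ ≤ 1 + ∑ i ∈ Finset.range χc.natDegree,
        ‖MvPolynomial.eval t (χc.coeff i)‖ := by
      intro t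
      apply root_bound χc hcm
      have h1 := congrArg (ψ t) (minpoly.aeval (MvPolynomial (Fin s) ℂ) c)
      rw [map_zero, Polynomial.aeval_def, ← AlgHom.coe_toRingHom, Polynomial.hom_eval₂] at h1
      have h2 : ((ψ t).toRingHom.comp (algebraMap (MvPolynomial (Fin s) ℂ) A)) =
          MvPolynomial.eval t := by
        apply RingHom.ext
        intro q
        exact hψ t q
      rw [← h2]
      exact h1
    set B : ℝ := (1 + ∑ i ∈ Finset.range χc.natDegree,
      ‖MvPolynomial.eval t₀ (χc.coeff i)‖) + 1 with hB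
    have hev : ∀ᶠ t in (U : Filter (Fin s → ℂ)), ψ t c ∈ Metric.closedBall (0 : ℂ) B := by
      have ht : Tendsto (fun t => 1 + ∑ i ∈ Finset.range χc.natDegree,
          ‖MvPolynomial.eval t (χc.coeff i)‖) (U : Filter (Fin s → ℂ))
          (𝓝 (1 + ∑ i ∈ Finset.range χc.natDegree, ‖MvPolynomial.eval t₀ (χc.coeff i)‖)) :=
        tendsto_const_nhds.add (tendsto_finsetSum _ fun i _ => (hcont _).norm)
      filter_upwards [ht.eventually (eventually_le_nhds (lt_add_one _))] with t h1
      rw [mem_closedBall_zero_iff]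
      exact (hbd t).trans h1
    have hcpt : IsCompact (Metric.closedBall (0 : ℂ) B) := isCompact_closedBall _ _
    obtain ⟨x, -, hx⟩ := isCompact_iff_ultrafilter_le_nhds.1 hcpt (U.map fun t => ψ t c)
      (by rw [Filter.le_principal_iff]; exact hev)
    exact ⟨x, hx⟩
  choose L hL using hlim
  have huniq : ∀ {g : (Fin s → ℂ) → ℂ} {x y : ℂ}, Tendsto g (U : Filter (Fin s → ℂ)) (𝓝 x) →
      Tendsto g (U : Filter (Fin s → ℂ)) (𝓝 y) → x = y := fun h1 h2 => tendsto_nhds_unique h1 h2
  let Lh : A →ₐ[ℂ] ℂ :=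
    { toFun := L
      map_one' := huniq (hL 1) (by simp)
      map_mul' := fun x y => huniq (hL (x * y)) (by simpa using (hL x).mul (hL y))
      map_zero' := huniq (hL 0) (by simp)
      map_add' := fun x y => huniq (hL (x + y)) (by simpa using (hL x).add (hL y))
      commutes' := fun c => huniq (hL _) (by simp) }
  have hLφ : Lh = φ := by
    apply hsep
    · intro q
      refine huniq (hL _) ?_
      rw [hφ]
      simpa [hψ] using hcont q
    · refine huniq (hL a) ?_
      simp only [hψa]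
      rw [tendsto_zero_iff_norm_tendsto_zero]
      have h1 : Tendsto (fun t => ‖MvPolynomial.eval t (χ.coeff 0)‖)
          (U : Filter (Fin s → ℂ)) (𝓝 0) := by
        have h2 : MvPolynomial.eval t₀ (χ.coeff 0) = 0 := by
          have h3 := congrArg φ (minpoly.aeval (MvPolynomial (Fin s) ℂ) a)
          rw [map_zero, Polynomial.aeval_def, ← AlgHom.coe_toRingHom, Polynomial.hom_eval₂,
            AlgHom.coe_toRingHom, ha0, Polynomial.eval₂_at_zero] at h3
          rw [← hφ]
          exact h3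
        have h4 := (hcont (χ.coeff 0)).norm
        rwa [h2, norm_zero] at h4
      have h5 : Tendsto (fun t => ‖α t‖ ^ χ.natDegree) (U : Filter (Fin s → ℂ)) (𝓝 0) :=
        squeeze_zero (fun t => by positivity) hαsmall h1
      rw [Metric.tendsto_nhds] at h5 ⊢
      intro δ hδ
      filter_upwards [h5 (δ ^ χ.natDegree) (by positivity)] with t ht
      rw [dist_zero_right, norm_pow, norm_norm] at ht
      rw [dist_zero_right, norm_norm]
      exact lt_of_pow_lt_pow_left₀ _ hδ.le ht
  have hfin : ∀ᶠ t in (U : Filter (Fin s → ℂ)), ∀ c ∈ F, ‖ψ t c - φ c‖ < ε := by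
    rw [Filter.eventually_all_finset]
    intro c _
    have h1 : Tendsto (fun t => ψ t c) (U : Filter (Fin s → ℂ)) (𝓝 (φ c)) := by
      have := hL c
      have h2 : L c = φ c := by rw [← hLφ]; rfl
      rwa [h2] at this
    have := Metric.tendsto_nhds.1 h1 ε hε
    simpa [dist_eq_norm] using this
  obtain ⟨t, h1, h2⟩ := (hfin.and hU2).exists
  refine ⟨ψ t, h1, fun h0 => h2 ?_⟩
  rw [← hψ, hrb, map_mul, h0, zero_mul]

end core

/-- **Density**: in a finitely generated domain over `ℂ`, every point is approximated by points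
where a given nonzero element does not vanish. -/
theorem dens_alg {A : Type*} [CommRing A] [IsDomain A] [Algebra ℂ A]
    [hft : Algebra.FiniteType ℂ A] (φ : A →ₐ[ℂ] ℂ) (f : A) (hf : f ≠ 0) (F : Finset A)
    {ε : ℝ} (hε : 0 < ε) :
    ∃ ψ : A →ₐ[ℂ] ℂ, (∀ a ∈ F, ‖ψ a - φ a‖ < ε) ∧ ψ f ≠ 0 := by
  obtain ⟨s, g, hg, hgi⟩ := exists_integral_inj_algHom_of_fg ℂ A
  let := g.toRingHom.toAlgebra
  have : IsScalarTower ℂ (MvPolynomial (Fin s) ℂ) A := by
    apply IsScalarTower.of_algebraMap_eq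
    intro x
    exact (g.commutes x).symm
  have : Algebra.IsIntegral (MvPolynomial (Fin s) ℂ) A := ⟨hgi⟩
  exact dens_core (s := s) hg φ f hf F hε

/-- Sequence version. -/
theorem dens_seq {A : Type*} [CommRing A] [IsDomain A] [Algebra ℂ A]
    [hft : Algebra.FiniteType ℂ A] (φ : A →ₐ[ℂ] ℂ) (f : A) (hf : f ≠ 0) :
    ∃ ψ : ℕ → (A →ₐ[ℂ] ℂ), (∀ n, ψ n f ≠ 0) ∧
      ∀ a, Tendsto (fun n => ψ n a) atTop (𝓝 (φ a)) := by
  obtain ⟨G, hG⟩ := hft.out
  choose ψ h1 h2 using fun n : ℕ =>
    dens_alg φ f hf G (ε := 1 / ((n : ℝ) + 1)) Nat.one_div_pos_of_nat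
  refine ⟨ψ, h2, ?_⟩
  let S : Subalgebra ℂ A :=
    { carrier := {a | Tendsto (fun n => ψ n a) atTop (𝓝 (φ a))}
      mul_mem' := fun {a b} ha hb => by
        simp only [Set.mem_ofPred_eq, map_mul] at *
        exact ha.mul hb
      add_mem' := fun {a b} ha hb => by
        simp only [Set.mem_ofPred_eq, map_add] at *
        exact ha.add hb
      algebraMap_mem' := fun c => by
        simp only [Set.mem_ofPred_eq, AlgHom.commutes]
        exact tendsto_const_nhds }
  have hS : S = ⊤ := by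
    rw [eq_top_iff, ← hG, Algebra.adjoin_le_iff]
    intro a ha
    change Tendsto (fun n => ψ n a) atTop (𝓝 (φ a))
    rw [tendsto_iff_norm_sub_tendsto_zero]
    exact squeeze_zero (fun n => norm_nonneg _) (fun n => (h1 n a ha).le)
      tendsto_one_div_add_atTop_nhds_zero_nat
  intro a
  have : a ∈ S := by rw [hS]; trivial
  exact this

/-- Version for a prime ideal of a polynomial ring: the common zeros of `P` where `f ∉ P` does not
vanish are dense (Euclidean topology) in the common zeros of `P`. -/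
theorem dens_prime {σ : Type*} [Finite σ] (P : Ideal (MvPolynomial σ ℂ)) [hP : P.IsPrime]
    (f : MvPolynomial σ ℂ) (hf : f ∉ P) (z : σ → ℂ)
    (hz : ∀ p ∈ P, MvPolynomial.eval z p = 0) :
    ∃ y : ℕ → σ → ℂ, (∀ n, ∀ p ∈ P, MvPolynomial.eval (y n) p = 0) ∧
      (∀ n, MvPolynomial.eval (y n) f ≠ 0) ∧ Tendsto y atTop (𝓝 z) := by
  have : Algebra.FiniteType ℂ (MvPolynomial σ ℂ ⧸ P) := inferInstance
  let φ : (MvPolynomial σ ℂ ⧸ P) →ₐ[ℂ] ℂ :=
    Ideal.Quotient.liftₐ P (MvPolynomial.aeval z) (fun p hp => by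
      simpa [MvPolynomial.coe_aeval_eq_eval] using hz p hp)
  have hf0 : Ideal.Quotient.mk P f ≠ 0 := fun h => hf (Ideal.Quotient.eq_zero_iff_mem.1 h)
  obtain ⟨ψ, h1, h2⟩ := dens_seq φ (Ideal.Quotient.mk P f) hf0
  have hev : ∀ (θ : (MvPolynomial σ ℂ ⧸ P) →ₐ[ℂ] ℂ) (p : MvPolynomial σ ℂ),
      θ (Ideal.Quotient.mk P p) =
        MvPolynomial.eval (fun i => θ (Ideal.Quotient.mk P (MvPolynomial.X i))) p := by
    intro θ p
    have h : θ.comp (Ideal.Quotient.mkₐ ℂ P) =
        MvPolynomial.aeval (fun i => θ (Ideal.Quotient.mk P (MvPolynomial.X i))) := by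
      apply MvPolynomial.algHom_ext
      intro i
      simp
    have := congrArg (fun g => g p) h
    simpa [MvPolynomial.coe_aeval_eq_eval] using this
  refine ⟨fun n i => ψ n (Ideal.Quotient.mk P (MvPolynomial.X i)), ?_, ?_, ?_⟩
  · intro n p hp
    rw [← hev, Ideal.Quotient.eq_zero_iff_mem.2 hp, map_zero]
  · intro n
    rw [← hev]
    exact h1 n
  · rw [tendsto_pi_nhds]
    intro i
    have := h2 (Ideal.Quotient.mk P (MvPolynomial.X i))
    have h3 : φ (Ideal.Quotient.mk P (MvPolynomial.X i)) = z i := by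
      simp [φ, Ideal.Quotient.liftₐ_apply]
    rwa [h3] at this

end Vale.Agent.P271.H26
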